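import Vale.Agent.P181.DGx.H248.Inj
import Vale.Agent.P181.SZR2.Final

set_option autoImplicit false

/-!
# P181, DG (D3): the lower bound
-/

open MvPolynomial

namespace Vale.Agent.P181.DGx.H248

open Vale.Agent.P181.T4 (HW finiteDimensional_HW)
open Vale.Agent.P181.SZ (TI)
open Vale.Agent.P181.SZR2 (cf map_get)
open Vale.Agent.P181.DG (PKT NT KT LowT)

instance finiteDimensional_PKT {m S : ℕ} {σ : Type} [Fintype σ] (d : σ → ℕ) (t : ℕ)
    (mu : Fin m → ℕ) : FiniteDimensional ℂ (PKT m S σ d t mu) :=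
  Submodule.finiteDimensional_of_le (S₂ := HW m (σ ⊕ Fin t) mu) (fun _ h => h.1)

/-- The derivatives of a substitution. -/
lemma sum_pderiv_sb {m b l t : ℕ} (σ : Fin b ≃ Sl l t) (i : Fin m)
    (f : MvPolynomial (Fin m × (Fin l ⊕ Fin t)) ℂ) :
    ∑ c, pderiv (i, c) (sb m (fun c => kks (σ c)) (fun c => cos (σ c)) f) =
      sb m (fun c => kks (σ c)) (fun c => cos (σ c))
        (∑ j, pderiv (i, (Sum.inr j : Fin l ⊕ Fin t)) f) := by
  rw [Finset.sum_congr rfl fun c _ => pderiv_sb _ _ i c f]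
  have h1 : ∑ c, C (cos (σ c)) * sb m (fun c => kks (σ c)) (fun c => cos (σ c))
      (pderiv (i, kks (σ c)) f) =
      ∑ s, C (cos s) * sb m (fun c => kks (σ c)) (fun c => cos (σ c)) (pderiv (i, kks s) f) :=
    Equiv.sum_comp σ (fun s => C (cos s) * sb m (fun c => kks (σ c)) (fun c => cos (σ c))
      (pderiv (i, kks s) f))
  rw [h1, Fintype.sum_sum_type, Fintype.sum_prod_type, map_sum]
  have h2 : ∀ j : Fin l, ∑ r : Fin 3, (C (cos (Sum.inl (j, r) : Sl l t)) : MvPolynomial
      (Fin m × Fin b) ℂ) * sb m (fun c => kks (σ c)) (fun c => cos (σ c))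
        (pderiv (i, kks (Sum.inl (j, r) : Sl l t)) f) = 0 := by
    intro j
    have h3 : ∑ r : Fin 3, (C (cos (Sum.inl (j, r) : Sl l t)) : MvPolynomial
      (Fin m × Fin b) ℂ) * sb m (fun c => kks (σ c)) (fun c => cos (σ c))
        (pderiv (i, kks (Sum.inl (j, r) : Sl l t)) f) = (∑ r : Fin 3, C (cf r)) *
        sb m (fun c => kks (σ c)) (fun c => cos (σ c)) (pderiv (i, Sum.inl j) f) := by
      rw [Finset.sum_mul]
      rfl
    have h4 : (∑ r : Fin 3, (C (cf r) : MvPolynomial (Fin m × Fin b) ℂ)) = 0 := by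
      rw [← map_sum, Fin.sum_univ_three]
      have h5 : cf 0 + cf 1 + cf 2 = 0 := by
        change (1 : ℂ) + 1 + -2 = 0
        norm_num
      rw [h5, map_zero]
    rw [h3, h4, zero_mul]
  rw [Finset.sum_eq_zero fun j _ => h2 j, zero_add]
  refine Finset.sum_congr rfl fun j _ => ?_
  change C (1 : ℂ) * _ = _
  rw [C_1, one_mul]
  rfl

/-- The symmetrized substitution is translation invariant. -/
theorem Ph_mem_TI {m S a b l t : ℕ} {d : Fin l → ℕ} {mu : Fin m → ℕ} (hSa : S ≤ a + 1)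
    (hd : ∀ j, d j ≤ a) {f : MvPolynomial (Fin m × (Fin l ⊕ Fin t)) ℂ}
    (hf : f ∈ PKT m S (Fin l) d t mu) : Ph m b l t f ∈ TI b a m mu := by
  classical
  rw [Ph_apply]
  refine ⟨Submodule.sum_mem _ fun σ _ => sb_mem_HW _ _ hf.1, fun e => ?_, fun v hv c => ?_,
    fun i => ?_⟩
  · rw [map_sum]
    conv_rhs => rw [← Equiv.sum_comp (Equiv.equivCongr e (Equiv.refl (Sl l t)))]
    refine Finset.sum_congr rfl fun σ _ => ?_
    rw [rename_sb]
    rfl
  · rw [coeff_sum] at hv
    obtain ⟨σ, _, hσ⟩ := Finset.exists_ne_zero_of_sum_ne_zero hv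
    obtain ⟨u, hu, _, h1⟩ := sb_wt _ _ f v hσ
    have h2 := h1 (kks (σ c))
    have h3 : ∑ i, v (i, c) ≤ ∑ i, u (i, kks (σ c)) := by
      rw [← h2]
      refine le_trans (le_of_eq ?_) (Finset.single_le_sum (f := fun c' =>
        if kks (σ c') = kks (σ c) then ∑ i, v (i, c') else 0) (fun _ _ => Nat.zero_le _)
        (Finset.mem_univ c))
      exact (if_pos rfl).symm
    refine h3.trans ?_
    have h4 := hf.2.1 u hu
    rcases h5 : kks (σ c) with j | j
    · exact (h4.1 j).le.trans (hd j)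
    · have := h4.2 j
      omega
  · have h1 : ∀ c, pderiv (i, c) (∑ σ : Fin b ≃ Sl l t,
        sb m (fun c => kks (σ c)) (fun c => cos (σ c)) f) =
        ∑ σ : Fin b ≃ Sl l t, pderiv (i, c) (sb m (fun c => kks (σ c)) (fun c => cos (σ c)) f) :=
      fun c => map_sum _ _ _
    rw [Finset.sum_congr rfl fun c _ => h1 c, Finset.sum_comm]
    refine Finset.sum_eq_zero fun σ _ => ?_
    rw [sum_pderiv_sb, hf.2.2.2 i, map_zero]

/-- **(D3)** the lower bound. -/
theorem lowT : LowT := by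
  classical
  intro a b m S mu hS hSa
  generalize hT : (KT (∑ i, mu i) S).filter
    (fun k => 3 * Multiset.card k ≤ b ∧ ∀ x ∈ k, x ≤ a) = T
  have hmem : ∀ k ∈ T, (∀ x ∈ k, S ≤ x) ∧ 3 * Multiset.card k ≤ b ∧ ∀ x ∈ k, x ≤ a := by
    intro k hk
    rw [← hT] at hk
    have h3 := Finset.mem_filter.1 hk
    refine ⟨?_, h3.2⟩
    obtain ⟨u, _, hu⟩ := Finset.mem_biUnion.1 h3.1
    exact (Finset.mem_filter.1 hu).2
  have hget : ∀ (k : Multiset ℕ) (j : Fin k.toList.length), k.toList.get j ∈ k :=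
    fun k j => Multiset.mem_toList.1 (List.get_mem _ _)
  let W := ∀ i : {k // k ∈ T}, PKT m S (Fin i.1.toList.length) (fun j => i.1.toList.get j)
    (b - 3 * Multiset.card i.1) mu
  let L : W →ₗ[ℂ] TI b a m mu := ∑ i : {k // k ∈ T},
    (((Ph m b i.1.toList.length (b - 3 * Multiset.card i.1)).restrict
      (p := PKT m S (Fin i.1.toList.length) (fun j => i.1.toList.get j)
        (b - 3 * Multiset.card i.1) mu) (q := TI b a m mu)
      (fun f hf => Ph_mem_TI hSa (fun j => (hmem i.1 i.2).2.2 _ (hget _ j)) hf))) ∘ₗ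
      LinearMap.proj i
  have hL : ∀ x : W, ((L x : TI b a m mu) : MvPolynomial (Fin m × Fin b) ℂ) =
      ∑ i : {k // k ∈ T}, Ph m b i.1.toList.length (b - 3 * Multiset.card i.1)
        (x i : MvPolynomial _ ℂ) := by
    intro x
    rw [LinearMap.sum_apply, Submodule.coe_sum]
    rfl
  have hinj : Function.Injective L := by
    rw [← LinearMap.ker_eq_bot, LinearMap.ker_eq_bot']
    intro x hx
    have h1 := hL x
    rw [hx, Submodule.coe_zero] at h1
    have h2 := inj (S := S) (b := b) (by omega) (fun i : {k // k ∈ T} => i.1.toList.length)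
      (fun i => b - 3 * Multiset.card i.1) (fun i => by
        have := (hmem i.1 i.2).2.1
        rw [Multiset.length_toList]
        omega) (fun i j => i.1.toList.get j)
      (fun i j => hS.trans ((hmem i.1 i.2).1 _ (hget _ j)))
      (fun i j => (hmem i.1 i.2).1 _ (hget _ j))
      (fun i i' h => by
        have h3 := map_get i.1
        have h4 := map_get i'.1
        exact Subtype.ext (h3.symm.trans (h.trans h4)))
      (fun i => (x i : MvPolynomial _ ℂ)) (fun i v hv => (x i).2.2.1 v hv)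
      (fun i e s he => (x i).2.2.2.1 e s he) h1.symm
    funext i
    exact Subtype.ext (h2 i)
  have hfr : Module.finrank ℂ W = ∑ i : {k // k ∈ T}, NT m S mu i.1 (b - 3 * Multiset.card i.1) := by
    rw [Module.finrank_pi_fintype]
    rfl
  have h5 := LinearMap.finrank_le_finrank_of_injective hinj
  rw [hfr] at h5
  refine le_trans (le_of_eq ?_) h5
  exact (Finset.sum_coe_sort T (fun k => NT m S mu k (b - 3 * Multiset.card k))).symm

end Vale.Agent.P181.DGx.H248
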