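import Mathlib

set_option autoImplicit false

/-!
# P181, DG (D3), (D6): the combinatorics of the splittings
-/

namespace Vale.Agent.P181.DGx.H248

/-- The slots: `l` blocks of three slots and `t` single slots. -/
abbrev Sl (l t : ℕ) : Type := (Fin l × Fin 3) ⊕ Fin t

/-- Three numbers with `(x0 + x1 + x2)² ≤ x0² + x1² + x2²`: at most one is nonzero. -/
lemma three {x : Fin 3 → ℕ} (h : (∑ r, x r) ^ 2 = ∑ r, x r ^ 2) {r s : Fin 3} (hr : x r ≠ 0)
    (hs : x s ≠ 0) : r = s := by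
  rw [Fin.sum_univ_three, Fin.sum_univ_three] at h
  have h1 : x 0 * x 1 + x 0 * x 2 + x 1 * x 2 = 0 := by nlinarith
  have h2 : x 0 * x 1 = 0 ∧ x 0 * x 2 = 0 ∧ x 1 * x 2 = 0 := by
    refine ⟨?_, ?_, ?_⟩ <;> omega
  obtain ⟨h3, h4, h5⟩ := h2
  rcases Nat.mul_eq_zero.1 h3 with h6 | h6 <;> rcases Nat.mul_eq_zero.1 h4 with h7 | h7 <;>
    rcases Nat.mul_eq_zero.1 h5 with h8 | h8 <;> fin_cases r <;> fin_cases s <;> simp_all

lemma sq_le {x : Fin 3 → ℕ} : ∑ r, x r ^ 2 ≤ (∑ r, x r) ^ 2 := by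
  rw [Fin.sum_univ_three, Fin.sum_univ_three]
  nlinarith [Nat.zero_le (x 0 * x 1), Nat.zero_le (x 0 * x 2), Nat.zero_le (x 1 * x 2)]

/-- **Splittings.** -/
theorem comb {b l t l' t' S : ℕ} (q : Fin l ⊕ Fin t → Fin b) (hq : Function.Injective q)
    (σ : Fin b ≃ Sl l' t') (e0 : Fin l ⊕ Fin t → ℕ) (d0 : Fin l → ℕ) (d : Fin l' → ℕ)
    (E : Fin b → ℕ) (hE : ∀ k, E (q k) = e0 k) (hE0 : ∀ c, (∀ k, q k ≠ c) → E c = 0)
    (h0 : ∀ j, e0 (Sum.inl j) = d0 j) (hd0 : ∀ j, S ≤ d0 j) (hS : 1 ≤ S)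
    (hb : ∀ j, ∑ r, E (σ.symm (Sum.inl (j, r))) = d j)
    (hsm : ∀ i, E (σ.symm (Sum.inr i)) < S) (hd : ∀ j, 1 ≤ d j)
    (hsq : ∑ j, d j ^ 2 ≤ ∑ j, d0 j ^ 2) :
    ∃ (τ : Fin l' ≃ Fin l) (r : Fin l' → Fin 3),
      (∀ j, σ (q (Sum.inl (τ j))) = Sum.inl (j, r j)) ∧ (∀ j, d0 (τ j) = d j) ∧
      ∀ i, e0 (Sum.inr i) ≠ 0 → ∃ i', σ (q (Sum.inr i)) = Sum.inr i' := by
  classical
  -- the large columns are in the blocks
  have hlive : ∀ j0, ∃ x, σ (q (Sum.inl j0)) = Sum.inl x := by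
    intro j0
    rcases h : σ (q (Sum.inl j0)) with x | i
    · exact ⟨x, rfl⟩
    · exfalso
      have h1 := hsm i
      rw [← h, Equiv.symm_apply_apply, hE, h0] at h1
      have := hd0 j0
      omega
  have hsum : ∑ j, ∑ r, E (σ.symm (Sum.inl (j, r))) ^ 2 = ∑ j, d0 j ^ 2 +
      ∑ i, (if (σ (q (Sum.inr i))).isLeft then e0 (Sum.inr i) ^ 2 else 0) := by
    have h1 : ∑ j, ∑ r, E (σ.symm (Sum.inl (j, r))) ^ 2 =
        ∑ s : Sl l' t', (if s.isLeft then E (σ.symm s) ^ 2 else 0) := by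
      rw [Fintype.sum_sum_type, Fintype.sum_prod_type]
      simp
    have h2 : ∑ s : Sl l' t', (if s.isLeft then E (σ.symm s) ^ 2 else 0) =
        ∑ c, (if (σ c).isLeft then E c ^ 2 else 0) := by
      rw [← Equiv.sum_comp σ]
      exact Finset.sum_congr rfl fun c _ => by rw [Equiv.symm_apply_apply]
    have h3 : ∑ c, (if (σ c).isLeft then E c ^ 2 else 0) =
        ∑ k, (if (σ (q k)).isLeft then e0 k ^ 2 else 0) := by
      have h4 : ∑ k, (if (σ (q k)).isLeft then e0 k ^ 2 else 0) =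
          ∑ c ∈ Finset.univ.image q, (if (σ c).isLeft then E c ^ 2 else 0) := by
        rw [Finset.sum_image fun x _ y _ h => hq h]
        exact Finset.sum_congr rfl fun k _ => by rw [hE]
      rw [h4]
      symm
      apply Finset.sum_subset (Finset.subset_univ _)
      intro c _ hc
      have h5 : E c = 0 := hE0 c fun k hk => hc (Finset.mem_image.2 ⟨k, Finset.mem_univ _, hk⟩)
      rw [h5]
      simp
    rw [h1, h2, h3, Fintype.sum_sum_type]
    congr 1
    refine Finset.sum_congr rfl fun j _ => ?_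
    obtain ⟨x, hx⟩ := hlive j
    rw [hx, h0]
    simp
  have hle : ∀ j, ∑ r, E (σ.symm (Sum.inl (j, r))) ^ 2 ≤ d j ^ 2 := by
    intro j
    rw [← hb j]
    exact sq_le (x := fun r => E (σ.symm (Sum.inl (j, r))))
  have hle' := Finset.sum_le_sum fun j (_ : j ∈ Finset.univ) => hle j
  have heq : ∑ j, ∑ r, E (σ.symm (Sum.inl (j, r))) ^ 2 = ∑ j, d j ^ 2 := by omega
  have heq' := (Finset.sum_eq_sum_iff_of_le fun j _ => hle j).1 heq
  have hz : ∀ i, (σ (q (Sum.inr i))).isLeft → e0 (Sum.inr i) = 0 := by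
    have h1 : ∑ i, (if (σ (q (Sum.inr i))).isLeft then e0 (Sum.inr i) ^ 2 else 0) = 0 := by omega
    intro i hi
    have h2 := (Finset.sum_eq_zero_iff.1 h1) i (Finset.mem_univ _)
    rw [if_pos hi] at h2
    exact pow_eq_zero_iff (two_ne_zero) |>.1 h2
  have hthree : ∀ j {r s : Fin 3}, E (σ.symm (Sum.inl (j, r))) ≠ 0 →
      E (σ.symm (Sum.inl (j, s))) ≠ 0 → r = s := by
    intro j r s hr hs
    refine three (x := fun r => E (σ.symm (Sum.inl (j, r)))) ?_ hr hs
    rw [heq' j (Finset.mem_univ _), hb j]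
  have hex : ∀ j, ∃ (r : Fin 3) (j0 : Fin l), σ (q (Sum.inl j0)) = Sum.inl (j, r) ∧
      d0 j0 = d j := by
    intro j
    obtain ⟨r, hr⟩ : ∃ r, E (σ.symm (Sum.inl (j, r))) ≠ 0 := by
      by_contra hne
      push Not at hne
      have h1 := hb j
      rw [Finset.sum_eq_zero fun r _ => hne r] at h1
      have := hd j
      omega
    have h1 : ∃ k, q k = σ.symm (Sum.inl (j, r)) := by
      by_contra hne
      push Not at hne
      exact hr (hE0 _ hne)
    obtain ⟨k, hk⟩ := h1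
    have hk' : σ (q k) = Sum.inl (j, r) := by rw [hk, Equiv.apply_symm_apply]
    rcases k with j0 | i
    · refine ⟨r, j0, hk', ?_⟩
      rw [← h0, ← hE, hk, ← hb j]
      symm
      apply Finset.sum_eq_single r
      · intro s _ hs
        by_contra h2
        exact hs (hthree j h2 hr)
      · intro h'
        exact absurd (Finset.mem_univ _) h'
    · exfalso
      apply hr
      rw [← hk, hE]
      exact hz i (by rw [hk']; rfl)
  choose r τ hτ hdτ using hex
  have hinj : Function.Injective τ := by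
    intro j j' h
    have h1 := hτ j
    rw [h, hτ j'] at h1
    exact (congrArg Prod.fst (Sum.inl_injective h1)).symm
  have hsurj : Function.Surjective τ := by
    intro j0
    obtain ⟨⟨j, s⟩, hx⟩ := hlive j0
    refine ⟨j, ?_⟩
    have h1 : E (σ.symm (Sum.inl (j, s))) ≠ 0 := by
      rw [← hx, Equiv.symm_apply_apply, hE, h0]
      have := hd0 j0
      omega
    have h2 : E (σ.symm (Sum.inl (j, r j))) ≠ 0 := by
      rw [← hτ j, Equiv.symm_apply_apply, hE, h0]
      have := hd0 (τ j)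
      omega
    have h3 := hthree j h1 h2
    rw [h3, ← hτ j] at hx
    exact (Sum.inl_injective (hq (σ.injective hx))).symm
  refine ⟨Equiv.ofBijective τ ⟨hinj, hsurj⟩, r, hτ, hdτ, ?_⟩
  intro i hi
  rcases h : σ (q (Sum.inr i)) with x | i'
  · exact absurd (hz i (by rw [h]; rfl)) hi
  · exact ⟨i', rfl⟩

end Vale.Agent.P181.DGx.H248
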