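import Vale.Agent.P181.DGx.H248.Sub
import Vale.Agent.P181.DGx.H248.Comb

set_option autoImplicit false

/-!
# P181, DG (D3), (D6): independence
-/

open MvPolynomial

namespace Vale.Agent.P181.DGx.H248

open Vale.Agent.P181.SZR2 (cf exists_perm)

/-- The block of a slot. -/
def kks {l t : ℕ} : Sl l t → Fin l ⊕ Fin t := Sum.map Prod.fst id

/-- The coefficient of a slot. -/
def cos {l t : ℕ} : Sl l t → ℂ := Sum.elim (fun x => cf x.2) (fun _ => 1)

/-- The symmetrized substitution. -/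
noncomputable def Ph (m b l t : ℕ) :
    MvPolynomial (Fin m × (Fin l ⊕ Fin t)) ℂ →ₗ[ℂ] MvPolynomial (Fin m × Fin b) ℂ :=
  ∑ σ : Fin b ≃ Sl l t, (sb m (fun c => kks (σ c)) (fun c => cos (σ c))).toLinearMap

lemma Ph_apply (m b l t : ℕ) (f : MvPolynomial (Fin m × (Fin l ⊕ Fin t)) ℂ) :
    Ph m b l t f = ∑ σ : Fin b ≃ Sl l t, sb m (fun c => kks (σ c)) (fun c => cos (σ c)) f := by
  rw [Ph, LinearMap.sum_apply]
  rfl

/-- Setting variables to zero. -/
lemma coeff_kill {κ : Type} [DecidableEq κ] (E : κ →₀ ℕ) (P : MvPolynomial κ ℂ) :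
    coeff E (aeval (fun k => if E k = 0 then (0 : MvPolynomial κ ℂ) else X k) P) = coeff E P := by
  classical
  conv_lhs => rw [P.as_sum, map_sum, coeff_sum]
  conv_rhs => rw [P.as_sum, coeff_sum]
  refine Finset.sum_congr rfl fun u _ => ?_
  rw [aeval_monomial]
  by_cases h : ∀ k ∈ u.support, E k ≠ 0
  · have h1 : (u.prod fun k n => (if E k = 0 then (0 : MvPolynomial κ ℂ) else X k) ^ n) =
        u.prod fun k n => X k ^ n := by
      refine Finset.prod_congr rfl fun k hk => ?_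
      beta_reduce
      rw [if_neg (h k hk)]
    rw [h1]
    exact congrArg _ (monomial_eq).symm
  · push Not at h
    obtain ⟨k, hk, hk0⟩ := h
    have h1 : (u.prod fun k n => (if E k = 0 then (0 : MvPolynomial κ ℂ) else X k) ^ n) = 0 := by
      refine Finset.prod_eq_zero hk ?_
      beta_reduce
      rw [if_pos hk0, zero_pow (Finsupp.mem_support_iff.1 hk)]
    rw [h1, mul_zero, coeff_zero, coeff_monomial, if_neg]
    intro h2
    rw [h2] at hk
    exact (Finsupp.mem_support_iff.1 hk) hk0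

lemma eval_aeval' {σ τ : Type} (x : τ → ℂ) (f : σ → MvPolynomial τ ℂ) (g : MvPolynomial σ ℂ) :
    eval x (aeval f g) = eval (fun i => eval x (f i)) g := by
  rw [aeval_def, eval_eval₂, eval, coe_eval₂Hom]
  congr 1
  ext y
  simp

lemma eval_one_sc {m : ℕ} {κ : Type} (y : κ → Fin m → ℂ) (f : MvPolynomial (Fin m × κ) ℂ) :
    eval (fun _ => 1) (sc y f) = eval (fun p => y p.2 p.1) f := by
  rw [sc, eval_aeval']
  refine congrArg (fun x => eval x f) (funext fun p => ?_)
  rw [map_mul, eval_C, eval_X, mul_one]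

/-- A nonzero polynomial has a nonzero coefficient after scaling. -/
lemma exists_sc {m : ℕ} {κ : Type} {f : MvPolynomial (Fin m × κ) ℂ} (hf : f ≠ 0) :
    ∃ (y : κ → Fin m → ℂ) (e : κ →₀ ℕ), coeff e (sc y f) ≠ 0 ∧ ∀ k, e k = 0 → y k = 0 := by
  classical
  obtain ⟨x, hx⟩ : ∃ x : Fin m × κ → ℂ, eval x f ≠ 0 := by
    by_contra h
    push Not at h
    exact hf (MvPolynomial.funext fun x => by rw [h x, map_zero])
  have h1 : sc (fun k i => x (i, k)) f ≠ 0 := by
    intro h
    apply hx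
    have h2 := eval_one_sc (fun k i => x (i, k)) f
    rw [h, map_zero] at h2
    exact h2.symm
  obtain ⟨e, he⟩ : ∃ e, coeff e (sc (fun k i => x (i, k)) f) ≠ 0 := by
    by_contra h
    push Not at h
    exact h1 (MvPolynomial.ext _ _ fun e => by rw [h e, coeff_zero])
  refine ⟨fun k i => if e k = 0 then 0 else x (i, k), e, ?_, ?_⟩
  · have h2 : (aeval (fun k => if e k = 0 then (0 : MvPolynomial κ ℂ) else X k)).comp
        (sc fun k i => x (i, k)) = sc fun k i => if e k = 0 then 0 else x (i, k) := by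
      apply MvPolynomial.algHom_ext
      intro p
      rw [AlgHom.comp_apply, sc_X, sc_X, map_mul, aeval_C, aeval_X]
      by_cases h : e p.2 = 0
      · rw [if_pos h, if_pos h, mul_zero, map_zero, zero_mul]
      · rw [if_neg h, if_neg h]
        rfl
    rw [← h2, AlgHom.comp_apply, coeff_kill]
    exact he
  · intro k hk
    funext i
    exact if_pos hk

lemma sc_wt {m : ℕ} {κ : Type} [Fintype κ] (y : κ → Fin m → ℂ)
    (f : MvPolynomial (Fin m × κ) ℂ) (E : κ →₀ ℕ) (hE : coeff E (sc y f) ≠ 0) :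
    ∃ v, coeff v f ≠ 0 ∧ ∀ k, E k = ∑ i, v (i, k) := by
  classical
  obtain ⟨v, hv, h⟩ := wt_exists (K := κ) (fun k c => if c = k then 1 else 0)
    (wCol id) _ (by
      intro k p
      exact (SZR2.wh_X _ _ (by rfl)).C_mul _) f E hE
  refine ⟨v, hv, fun k => ?_⟩
  have h1 := h k
  rw [SZR2.weight_fintype, weight_col, Finset.sum_eq_single k, Finset.sum_eq_single k] at h1
  · simpa using h1
  · intro j _ hj
    rw [if_neg (by exact hj)]
  · intro h'
    exact absurd (Finset.mem_univ _) h'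
  · intro j _ hj
    rw [if_neg hj, mul_zero]
  · intro h'
    exact absurd (Finset.mem_univ _) h'

/-- Scaling of the large columns. -/
lemma aeval_scale {m l t : ℕ} {τ : Type} {d : Fin l → ℕ}
    (f : MvPolynomial (Fin m × (Fin l ⊕ Fin t)) ℂ)
    (hdeg : ∀ v, coeff v f ≠ 0 → ∀ j, ∑ a, v (a, Sum.inl j) = d j)
    (c : Fin l → ℂ) (Ξ : Fin m × (Fin l ⊕ Fin t) → MvPolynomial τ ℂ) :
    aeval (fun p => C (Sum.elim c (fun _ => 1) p.2) * Ξ p) f = C (∏ j, c j ^ d j) * aeval Ξ f := by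
  classical
  rw [f.as_sum, map_sum, map_sum, Finset.mul_sum]
  refine Finset.sum_congr rfl fun v hv => ?_
  rw [aeval_monomial, aeval_monomial]
  have h1 : (v.prod fun p n => (C (Sum.elim c (fun _ => 1) p.2) * Ξ p) ^ n) =
      C (∏ j, c j ^ d j) * v.prod fun p n => Ξ p ^ n := by
    rw [Finsupp.prod_fintype _ _ (fun _ => pow_zero _), Finsupp.prod_fintype _ _
      (fun _ => pow_zero _)]
    simp only [mul_pow, Finset.prod_mul_distrib]
    congr 1
    rw [Fintype.prod_prod_type_right, Fintype.prod_sum_type]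
    have h2 : ∏ j : Fin t, ∏ a : Fin m, (C (Sum.elim c (fun _ => 1)
        ((a, (Sum.inr j : Fin l ⊕ Fin t)) : Fin m × (Fin l ⊕ Fin t)).2) : MvPolynomial τ ℂ) ^
          v (a, Sum.inr j) = 1 := by
      refine Finset.prod_eq_one fun j _ => Finset.prod_eq_one fun a _ => ?_
      simp
    rw [h2, mul_one, map_prod]
    refine Finset.prod_congr rfl fun j _ => ?_
    simp only [Sum.elim_inl]
    rw [Finset.prod_pow_eq_pow_sum, hdeg v (mem_support_iff.1 hv) j, map_pow]
  rw [h1]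
  ring

/-- The coefficient for a good bijection. -/
lemma good_coeff {m b l t : ℕ} {d : Fin l → ℕ}
    (f : MvPolynomial (Fin m × (Fin l ⊕ Fin t)) ℂ)
    (hdeg : ∀ v, coeff v f ≠ 0 → ∀ j, ∑ a, v (a, Sum.inl j) = d j)
    (hsym : ∀ (e : Equiv.Perm (Fin l)) (s : Equiv.Perm (Fin t)), (∀ j, d (e j) = d j) →
      rename (fun p : Fin m × (Fin l ⊕ Fin t) => (p.1, Sum.map e s p.2)) f = f)
    (q : Fin l ⊕ Fin t → Fin b) (hq : Function.Injective q) (σ : Fin b ≃ Sl l t)
    (e0 : Fin l ⊕ Fin t →₀ ℕ) (y0 : Fin l ⊕ Fin t → Fin m → ℂ) (hy0 : ∀ k, e0 k = 0 → y0 k = 0)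
    (y : Fin b → Fin m → ℂ) (hy : ∀ k, y (q k) = y0 k) (hy' : ∀ c, (∀ k, q k ≠ c) → y c = 0)
    (τ : Equiv.Perm (Fin l)) (r : Fin l → Fin 3)
    (hτ : ∀ j, σ (q (Sum.inl (τ j))) = Sum.inl (j, r j)) (hd : ∀ j, d (τ j) = d j)
    (hi : ∀ i, e0 (Sum.inr i) ≠ 0 → ∃ i', σ (q (Sum.inr i)) = Sum.inr i') :
    coeff (e0.mapDomain q) (sc y (sb m (fun c => kks (σ c)) (fun c => cos (σ c)) f)) =
      (∏ j, cf (r j) ^ d j) * coeff e0 (sc y0 f) := by
  classical
  -- the permutation of the small columns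
  obtain ⟨ρ, hρ1, hρ2⟩ : ∃ ρ : Equiv.Perm (Fin t),
      (∀ i, y (σ.symm (Sum.inr i)) = y0 (Sum.inr (ρ i))) ∧
      ∀ i, y0 (Sum.inr (ρ i)) ≠ 0 → σ.symm (Sum.inr i) = q (Sum.inr (ρ i)) := by
    have hi' : ∀ i : {i : Fin t // e0 (Sum.inr i) ≠ 0}, ∃ i', σ (q (Sum.inr i.1)) = Sum.inr i' :=
      fun i => hi i.1 i.2
    choose f1 hf1 using hi'
    have hinj : Function.Injective f1 := by
      intro i i' h
      have h1 := hf1 i
      rw [h, ← hf1 i'] at h1
      exact Subtype.ext (Sum.inr_injective (hq (σ.injective h1)))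
    obtain ⟨ρ, hρ⟩ := exists_perm f1 Subtype.val hinj Subtype.val_injective
    have key : ∀ i, (y (σ.symm (Sum.inr i)) = y0 (Sum.inr (ρ i))) ∧
        (y0 (Sum.inr (ρ i)) ≠ 0 → σ.symm (Sum.inr i) = q (Sum.inr (ρ i))) := by
      intro i
      by_cases h : ∃ i', f1 i' = i
      · obtain ⟨i', rfl⟩ := h
        have h1 : σ.symm (Sum.inr (f1 i')) = q (Sum.inr i'.1) := by
          rw [← hf1 i', Equiv.symm_apply_apply]
        rw [hρ i', h1, hy]
        exact ⟨rfl, fun _ => rfl⟩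
      · have h1 : y0 (Sum.inr (ρ i)) = 0 := by
          apply hy0
          by_contra h2
          apply h
          refine ⟨⟨ρ i, h2⟩, ρ.injective ?_⟩
          rw [hρ]
        refine ⟨?_, fun h2 => absurd h1 h2⟩
        rw [h1]
        by_cases h3 : ∃ k, q k = σ.symm (Sum.inr i)
        · obtain ⟨k, hk⟩ := h3
          rw [← hk, hy]
          rcases k with j0 | i'
          · exfalso
            have h4 := hτ (τ.symm j0)
            rw [Equiv.apply_symm_apply, hk, Equiv.apply_symm_apply] at h4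
            exact absurd h4 Sum.inr_ne_inl
          · apply hy0
            by_contra h4
            apply h
            refine ⟨⟨i', h4⟩, ?_⟩
            have h5 := hf1 ⟨i', h4⟩
            rw [hk, Equiv.apply_symm_apply] at h5
            exact (Sum.inr_injective h5).symm
        · push Not at h3
          exact hy' _ h3
    exact ⟨ρ, fun i => (key i).1, fun i => (key i).2⟩
  have hψ : (fun p : Fin m × (Fin l ⊕ Fin t) => ∑ c, if kks (σ c) = p.2 then
      C (cos (σ c)) * (C (y c p.1) * X c) else (0 : MvPolynomial (Fin b) ℂ)) =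
      fun p => C (Sum.elim (fun j => cf (r j)) (fun _ => 1) p.2) *
        (C (y0 (Sum.map τ ρ p.2) p.1) * X (q (Sum.map τ ρ p.2))) := by
    funext p
    obtain ⟨a, k⟩ := p
    rcases k with j | i
    · rw [Finset.sum_eq_single (q (Sum.inl (τ j)))]
      · rw [hτ j, if_pos (by rfl), hy]
        rfl
      · intro c _ hc
        split_ifs with h1
        · have h2 : y c = 0 := by
            by_cases h3 : ∃ k, q k = c
            · obtain ⟨k, rfl⟩ := h3
              rw [hy]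
              rcases k with j0 | i'
              · exfalso
                have h4 := hτ (τ.symm j0)
                rw [Equiv.apply_symm_apply] at h4
                rw [h4] at h1
                have h5 : τ.symm j0 = j := Sum.inl_injective h1
                apply hc
                rw [← h5, Equiv.apply_symm_apply]
              · apply hy0
                by_contra h4
                obtain ⟨i'', h5⟩ := hi i' h4
                rw [h5] at h1
                exact absurd h1 Sum.inr_ne_inl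
            · push Not at h3
              exact hy' _ h3
          rw [h2, Pi.zero_apply, map_zero, zero_mul, mul_zero]
        · rfl
      · intro h'
        exact absurd (Finset.mem_univ _) h'
    · rw [Finset.sum_eq_single (σ.symm (Sum.inr i))]
      · rw [Equiv.apply_symm_apply, if_pos (by rfl), hρ1 i]
        by_cases h1 : y0 (Sum.inr (ρ i)) = 0
        · simp [h1]
        · rw [hρ2 i h1]
          rfl
      · intro c _ hc
        rw [if_neg]
        intro h1
        apply hc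
        rcases h2 : σ c with x | i'
        · rw [h2] at h1
          exact absurd h1 Sum.inl_ne_inr
        · rw [h2] at h1
          have h3 : i' = i := Sum.inr_injective h1
          rw [Equiv.eq_symm_apply, h2, h3]
      · intro h'
        exact absurd (Finset.mem_univ _) h'
  rw [sc_sb, hψ, aeval_scale f hdeg, coeff_C_mul]
  congr 1
  have h1 : aeval (fun p : Fin m × (Fin l ⊕ Fin t) => C (y0 (Sum.map τ ρ p.2) p.1) *
      (X (q (Sum.map τ ρ p.2)) : MvPolynomial (Fin b) ℂ)) f = rename q (sc y0 f) := by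
    have h2 : aeval (fun p : Fin m × (Fin l ⊕ Fin t) => C (y0 (Sum.map τ ρ p.2) p.1) *
      (X (q (Sum.map τ ρ p.2)) : MvPolynomial (Fin b) ℂ)) = ((rename q).comp (sc y0)).comp
        (rename (R := ℂ) (fun p : Fin m × (Fin l ⊕ Fin t) => (p.1, Sum.map τ ρ p.2))) := by
      apply MvPolynomial.algHom_ext
      intro p
      rw [AlgHom.comp_apply, AlgHom.comp_apply, rename_X, sc_X, map_mul, rename_X, rename_C,
        aeval_X]
    rw [h2, AlgHom.comp_apply, AlgHom.comp_apply, hsym τ ρ hd]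
  rw [h1, coeff_rename_mapDomain q hq]

/-- Rotation of the blocks. -/
def rot {l t : ℕ} (ρ : Fin l → Fin 3) : Sl l t ≃ Sl l t :=
  Equiv.sumCongr (Equiv.prodShear (Equiv.refl _) (fun j => Equiv.addRight (ρ j))) (Equiv.refl _)

lemma rot_inl {l t : ℕ} (ρ : Fin l → Fin 3) (j : Fin l) (x : Fin 3) :
    rot (t := t) ρ (Sum.inl (j, x)) = Sum.inl (j, x + ρ j) := rfl

lemma rot_inr {l t : ℕ} (ρ : Fin l → Fin 3) (i : Fin t) :
    rot (l := l) ρ (Sum.inr i) = Sum.inr i := rfl

/-- The good bijections. -/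
def Good {b l t : ℕ} (d : Fin l → ℕ) (q : Fin l ⊕ Fin t → Fin b) (e0 : Fin l ⊕ Fin t →₀ ℕ)
    (τ : Equiv.Perm (Fin l)) (r : Fin l → Fin 3) (σ : Fin b ≃ Sl l t) : Prop :=
  (∀ j, σ (q (Sum.inl (τ j))) = Sum.inl (j, r j)) ∧ (∀ j, d (τ j) = d j) ∧
    ∀ i, e0 (Sum.inr i) ≠ 0 → ∃ i', σ (q (Sum.inr i)) = Sum.inr i'

lemma Good.rot {b l t : ℕ} {d : Fin l → ℕ} {q : Fin l ⊕ Fin t → Fin b}
    {e0 : Fin l ⊕ Fin t →₀ ℕ} {τ : Equiv.Perm (Fin l)} {r : Fin l → Fin 3} {σ : Fin b ≃ Sl l t}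
    (h : Good d q e0 τ r σ) (ρ : Fin l → Fin 3) :
    Good d q e0 τ (fun j => r j + ρ j) (σ.trans (rot ρ)) := by
  refine ⟨fun j => ?_, h.2.1, fun i hi => ?_⟩
  · rw [Equiv.trans_apply, h.1 j, rot_inl]
  · obtain ⟨i', hi'⟩ := h.2.2 i hi
    exact ⟨i', by rw [Equiv.trans_apply, hi', rot_inr]⟩

lemma rot_rot_neg {b l t : ℕ} (σ : Fin b ≃ Sl l t) (ρ : Fin l → Fin 3) :
    (σ.trans (rot ρ)).trans (rot fun j => -ρ j) = σ := by
  apply Equiv.ext
  intro c
  rw [Equiv.trans_apply, Equiv.trans_apply]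
  rcases σ c with ⟨j, x⟩ | i
  · rw [rot_inl, rot_inl]
    simp
  · rw [rot_inr, rot_inr]

lemma cf_sum_ne {n : ℕ} (hn : 2 ≤ n) : ∑ x, cf x ^ n ≠ 0 := by
  rw [Fin.sum_univ_three]
  simp only [cf, Matrix.cons_val_zero, Matrix.cons_val_one, one_pow]
  have h2 : (![(1 : ℂ), 1, -2] : Fin 3 → ℂ) 2 = -2 := rfl
  rw [h2]
  intro h3
  have h4 : (-2 : ℂ) ^ n = -2 := by linear_combination h3
  have h5 : ‖(-2 : ℂ) ^ n‖ = ‖(-2 : ℂ)‖ := by rw [h4]
  rw [norm_pow, norm_neg, Complex.norm_ofNat] at h5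
  have h6 : (2 : ℝ) ^ 2 ≤ 2 ^ n := pow_le_pow_right₀ (by norm_num) hn
  rw [h5] at h6
  norm_num at h6

/-- The sums over the blocks. -/
lemma sum_kks {b l t : ℕ} (σ : Fin b ≃ Sl l t) (E : Fin b → ℕ) (k : Fin l ⊕ Fin t) :
    ∑ c, (if kks (σ c) = k then E c else 0) =
      Sum.elim (fun j => ∑ r, E (σ.symm (Sum.inl (j, r)))) (fun i => E (σ.symm (Sum.inr i))) k := by
  classical
  have h1 : ∑ c, (if kks (σ c) = k then E c else 0) =
      ∑ s, (if kks s = k then E (σ.symm s) else 0) := by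
    rw [← Equiv.sum_comp σ (fun s => if kks s = k then E (σ.symm s) else 0)]
    exact Finset.sum_congr rfl fun c _ => by rw [Equiv.symm_apply_apply]
  rw [h1, Fintype.sum_sum_type, Fintype.sum_prod_type]
  rcases k with j | i
  · have h2 : ∑ i : Fin t, (if kks (Sum.inr i : Sl l t) = Sum.inl j then
        E (σ.symm (Sum.inr i)) else 0) = 0 :=
      Finset.sum_eq_zero fun i _ => if_neg Sum.inr_ne_inl
    rw [h2, add_zero, Finset.sum_eq_single j]
    · exact Finset.sum_congr rfl fun r _ => if_pos rfl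
    · intro j' _ hj
      refine Finset.sum_eq_zero fun r _ => if_neg ?_
      intro h
      exact hj (Sum.inl_injective h)
    · intro h'
      exact absurd (Finset.mem_univ _) h'
  · have h2 : ∑ j : Fin l, ∑ r : Fin 3, (if kks (Sum.inl (j, r) : Sl l t) = Sum.inr i then
        E (σ.symm (Sum.inl (j, r))) else 0) = 0 :=
      Finset.sum_eq_zero fun j _ => Finset.sum_eq_zero fun r _ => if_neg Sum.inl_ne_inr
    rw [h2, zero_add, Finset.sum_eq_single i]
    · exact if_pos rfl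
    · intro i' _ hi
      refine if_neg ?_
      intro h
      exact hi (Sum.inr_injective h)
    · intro h'
      exact absurd (Finset.mem_univ _) h'

/-- **Independence.** -/
theorem inj {m : ℕ} {ι : Type} [Fintype ι] {b S : ℕ} (hS : 1 ≤ S) (l t : ι → ℕ)
    (hb : ∀ i, 3 * l i + t i = b) (d : ∀ i, Fin (l i) → ℕ) (hd2 : ∀ i j, 2 ≤ d i j)
    (hdS : ∀ i j, S ≤ d i j)
    (hty : ∀ i i', Finset.univ.val.map (d i) = Finset.univ.val.map (d i') → i = i')
    (f : ∀ i, MvPolynomial (Fin m × (Fin (l i) ⊕ Fin (t i))) ℂ)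
    (hdeg : ∀ i v, coeff v (f i) ≠ 0 → (∀ j, ∑ a, v (a, Sum.inl j) = d i j) ∧
      ∀ j, ∑ a, v (a, Sum.inr j) < S)
    (hsym : ∀ i (e : Equiv.Perm (Fin (l i))) (s : Equiv.Perm (Fin (t i))),
      (∀ j, d i (e j) = d i j) →
      rename (fun p : Fin m × (Fin (l i) ⊕ Fin (t i)) => (p.1, Sum.map e s p.2)) (f i) = f i)
    (h0 : ∑ i, Ph m b (l i) (t i) (f i) = 0) : ∀ i, f i = 0 := by
  classical
  by_contra hne
  push Not at hne
  obtain ⟨i0, hi0, hmax⟩ : ∃ i0, f i0 ≠ 0 ∧ ∀ i, f i ≠ 0 →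
      ∑ j, d i j ^ 2 ≤ ∑ j, d i0 j ^ 2 := by
    obtain ⟨i1, hi1⟩ := hne
    obtain ⟨i0, hi0, hmax⟩ := Finset.exists_max_image (Finset.univ.filter fun i => f i ≠ 0)
      (fun i => ∑ j, d i j ^ 2) ⟨i1, Finset.mem_filter.2 ⟨Finset.mem_univ _, hi1⟩⟩
    exact ⟨i0, (Finset.mem_filter.1 hi0).2,
      fun i hi => hmax i (Finset.mem_filter.2 ⟨Finset.mem_univ _, hi⟩)⟩
  obtain ⟨y0, e0, hc, hy0⟩ := exists_sc hi0
  obtain ⟨v0, hv0, he0⟩ := sc_wt y0 (f i0) e0 hc
  have he1 : ∀ j, e0 (Sum.inl j) = d i0 j := fun j => by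
    rw [he0]
    exact (hdeg i0 v0 hv0).1 j
  -- the injection
  obtain ⟨q⟩ : Nonempty (Fin (l i0) ⊕ Fin (t i0) ↪ Fin b) := by
    apply Function.Embedding.nonempty_of_card_le
    rw [Fintype.card_sum, Fintype.card_fin, Fintype.card_fin, Fintype.card_fin]
    have := hb i0
    omega
  let y : Fin b → Fin m → ℂ := Function.extend q y0 0
  have hy : ∀ k, y (q k) = y0 k := fun k => q.injective.extend_apply _ _ _
  have hy' : ∀ c, (∀ k, q k ≠ c) → y c = 0 := by
    intro c hc'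
    change Function.extend q y0 0 c = 0
    rw [Function.extend_apply']
    · rfl
    · rintro ⟨k, hk⟩
      exact hc' k hk
  let E : Fin b →₀ ℕ := e0.mapDomain q
  have hE : ∀ k, E (q k) = e0 k := fun k => Finsupp.mapDomain_apply q.injective _ _
  have hE0 : ∀ c, (∀ k, q k ≠ c) → E c = 0 := by
    intro c hc'
    refine Finsupp.mapDomain_of_notMem_range _ _ ?_
    rintro ⟨k, hk⟩
    exact hc' k hk
  let G : ∀ i, (Fin b ≃ Sl (l i) (t i)) → ℂ := fun i σ =>
    coeff E (sc y (sb m (fun c => kks (σ c)) (fun c => cos (σ c)) (f i)))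
  have hG0 : ∑ i, ∑ σ, G i σ = 0 := by
    have h1 := congrArg (fun P => coeff E (sc y P)) h0
    beta_reduce at h1
    rw [map_zero, coeff_zero, map_sum, coeff_sum] at h1
    rw [← h1]
    refine Finset.sum_congr rfl fun i _ => ?_
    rw [Ph_apply, map_sum, coeff_sum]
  -- a nonzero coefficient gives a bijection
  have hsplit : ∀ (i : ι) (σ : Fin b ≃ Sl (l i) (t i)), G i σ ≠ 0 →
      ∃ (τ : Fin (l i) ≃ Fin (l i0)) (r : Fin (l i) → Fin 3),
        (∀ j, σ (q (Sum.inl (τ j))) = Sum.inl (j, r j)) ∧ (∀ j, d i0 (τ j) = d i j) ∧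
        ∀ i1, e0 (Sum.inr i1) ≠ 0 → ∃ i', σ (q (Sum.inr i1)) = Sum.inr i' := by
    intro i σ hσ
    have hfi : f i ≠ 0 := by
      intro h
      apply hσ
      change coeff E (sc y (sb m (fun c => kks (σ c)) (fun c => cos (σ c)) (f i))) = 0
      rw [h, map_zero, map_zero, coeff_zero]
    obtain ⟨v, hv, hk⟩ := sc_sb_wt _ _ y (f i) E hσ
    refine comb (S := S) q q.injective σ e0 (d i0) (d i) E hE hE0 he1 (hdS i0) hS ?_ ?_ ?_ (hmax i hfi)
    · intro j
      have h1 := hk (Sum.inl j)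
      rw [sum_kks σ E (Sum.inl j), Sum.elim_inl] at h1
      rw [h1]
      exact (hdeg i v hv).1 j
    · intro j
      have h1 := hk (Sum.inr j)
      rw [sum_kks σ E (Sum.inr j), Sum.elim_inr] at h1
      rw [h1]
      exact (hdeg i v hv).2 j
    · intro j
      have := hd2 i j
      omega
  have hother : ∀ i, i ≠ i0 → ∑ σ, G i σ = 0 := by
    intro i hi
    refine Finset.sum_eq_zero fun σ _ => ?_
    by_contra hσ
    obtain ⟨τ, r, _, hτ, _⟩ := hsplit i σ hσ
    apply hi
    apply hty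
    have h7 : d i = d i0 ∘ τ := funext fun j => (hτ j).symm
    rw [h7, ← Multiset.map_map]
    congr 1
    have h9 := Finset.map_univ_equiv τ
    have h10 := congrArg Finset.val h9
    rw [Finset.map_val] at h10
    exact h10
  rw [Finset.sum_eq_single i0 (fun i _ hi => hother i hi)
    (fun h' => absurd (Finset.mem_univ _) h')] at hG0
  have hgood : ∀ (σ : Fin b ≃ Sl (l i0) (t i0)) (τ : Equiv.Perm (Fin (l i0)))
      (r : Fin (l i0) → Fin 3), Good (d i0) q e0 τ r σ →
      G i0 σ = (∏ j, cf (r j) ^ d i0 j) * coeff e0 (sc y0 (f i0)) := by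
    intro σ τ r h
    exact good_coeff (f i0) (fun v hv => (hdeg i0 v hv).1) (hsym i0) q q.injective σ e0 y0 hy0 y
      hy hy' τ r h.1 h.2.1 h.2.2
  have hrot : ∀ σ : Fin b ≃ Sl (l i0) (t i0), ∑ ρ : Fin (l i0) → Fin 3, G i0 (σ.trans (rot ρ)) =
      if ∃ τ r, Good (d i0) q e0 τ r σ then
        (∏ j, ∑ x, cf x ^ d i0 j) * coeff e0 (sc y0 (f i0)) else 0 := by
    intro σ
    split_ifs with h
    · obtain ⟨τ, r, h⟩ := h
      rw [Finset.sum_congr rfl fun ρ _ => hgood _ τ _ (h.rot ρ), ← Finset.sum_mul]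
      congr 1
      rw [Finset.prod_univ_sum, Fintype.piFinset_univ,
        ← Equiv.sum_comp (Equiv.addLeft r) (fun x : Fin (l i0) → Fin 3 => ∏ j, cf (x j) ^ d i0 j)]
      rfl
    · refine Finset.sum_eq_zero fun ρ _ => ?_
      by_contra hσ
      obtain ⟨τ, r, h1, h2, h3⟩ := hsplit i0 _ hσ
      apply h
      have h4 : Good (d i0) q e0 τ r (σ.trans (rot ρ)) := ⟨h1, h2, h3⟩
      have h5 := h4.rot (fun j => -ρ j)
      rw [rot_rot_neg] at h5
      exact ⟨τ, _, h5⟩
  have htot : ∑ σ : Fin b ≃ Sl (l i0) (t i0), ∑ ρ : Fin (l i0) → Fin 3,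
      G i0 (σ.trans (rot ρ)) = 0 := by
    rw [Finset.sum_comm]
    refine Finset.sum_eq_zero fun ρ _ => ?_
    have h1 : ∑ σ : Fin b ≃ Sl (l i0) (t i0), G i0 (σ.trans (rot ρ)) = ∑ σ, G i0 σ := by
      let Θ : (Fin b ≃ Sl (l i0) (t i0)) ≃ (Fin b ≃ Sl (l i0) (t i0)) :=
        Equiv.equivCongr (Equiv.refl _) (rot ρ)
      rw [← Equiv.sum_comp Θ (G i0)]
      refine Finset.sum_congr rfl fun σ _ => ?_
      congr 1
    rw [h1, hG0]
  rw [Finset.sum_congr rfl fun σ _ => hrot σ, ← Finset.sum_filter, Finset.sum_const,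
    nsmul_eq_mul] at htot
  have hcard : ((Finset.univ.filter fun σ : Fin b ≃ Sl (l i0) (t i0) =>
      ∃ τ r, Good (d i0) q e0 τ r σ).card : ℂ) ≠ 0 := by
    rw [Nat.cast_ne_zero, ← Nat.pos_iff_ne_zero, Finset.card_pos]
    obtain ⟨σ1⟩ : Nonempty (Fin b ≃ Sl (l i0) (t i0)) := by
      refine ⟨Fintype.equivOfCardEq ?_⟩
      rw [Fintype.card_sum, Fintype.card_prod, Fintype.card_fin, Fintype.card_fin,
        Fintype.card_fin, Fintype.card_fin]
      have := hb i0
      omega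
    obtain ⟨e, he⟩ := exists_perm (fun k => σ1 (q k))
      (fun k : Fin (l i0) ⊕ Fin (t i0) =>
        (Sum.elim (fun j => Sum.inl (j, 0)) Sum.inr k : Sl (l i0) (t i0)))
      (fun k k' h => q.injective (σ1.injective h)) (by
        intro k k' h
        rcases k with j | i <;> rcases k' with j' | i'
        · have h1 : j = j' := congrArg Prod.fst (Sum.inl_injective h)
          rw [h1]
        · exact absurd h Sum.inl_ne_inr
        · exact absurd h Sum.inr_ne_inl
        · rw [Sum.inr_injective h])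
    refine ⟨σ1.trans e, Finset.mem_filter.2 ⟨Finset.mem_univ _, 1, fun _ => 0, ?_, ?_, ?_⟩⟩
    · intro j
      exact he (Sum.inl j)
    · intro j
      rfl
    · intro i _
      exact ⟨i, he (Sum.inr i)⟩
  have hprod : (∏ j, ∑ x, cf x ^ d i0 j) ≠ 0 :=
    Finset.prod_ne_zero_iff.2 fun j _ => cf_sum_ne (hd2 i0 j)
  exact (mul_ne_zero hcard (mul_ne_zero hprod hc)) htot

end Vale.Agent.P181.DGx.H248
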