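import Vale.Agent.P181.DG.Defs2
import Vale.Agent.P181.SZR2.Col
import Vale.Agent.P181.SZR2.Count
import Vale.Agent.P181.SZR2a.RowOp

set_option autoImplicit false

/-!
# P181, DG (D3), (D6): substitution of columns
-/

open MvPolynomial

namespace Vale.Agent.P181.DGx.H248

open Vale.Agent.P181.T4 (HW rowOp rowOp_apply rowOp_leibniz rowOp_C rowOp_var)
open Vale.Agent.P181.SZR2 (cf weight_fintype wh_X)
open Vale.Agent.P181.SZR2a (rowOp_aeval)

/-- Exact weights through a substitution. -/
lemma wt_exists {σ τ K : Type} (w : K → τ → ℕ) (w0 : K → σ → ℕ) (φ : σ → MvPolynomial τ ℂ)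
    (hφ : ∀ k p, IsWeightedHomogeneous (w k) (φ p) (w0 k p)) (f : MvPolynomial σ ℂ) (u : τ →₀ ℕ)
    (hu : coeff u (aeval φ f) ≠ 0) :
    ∃ v, coeff v f ≠ 0 ∧ ∀ k, Finsupp.weight (w k) u = Finsupp.weight (w0 k) v := by
  classical
  rw [f.as_sum, map_sum, coeff_sum] at hu
  obtain ⟨v, hv, h⟩ := Finset.exists_ne_zero_of_sum_ne_zero hu
  refine ⟨v, mem_support_iff.1 hv, fun k => ?_⟩
  rw [aeval_monomial] at h
  have h2 : IsWeightedHomogeneous (w k) (v.prod fun i n => φ i ^ n) (Finsupp.weight (w0 k) v) := by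
    rw [Finsupp.weight_apply]
    exact IsWeightedHomogeneous.prod _ _ _ fun i _ => (hφ k i).pow (v i)
  have h3 := (isWeightedHomogeneous_C (w k) (coeff v f)).mul h2
  rw [zero_add] at h3
  exact h3 h

/-- The weight of the row `i`. -/
def wRow {m : ℕ} {κ : Type} (i : Fin m) (p : Fin m × κ) : ℕ := if p.1 = i then 1 else 0

/-- The weight of the columns over `k`. -/
def wCol {m : ℕ} {κ κ' : Type} [DecidableEq κ] (kk : κ' → κ) (k : κ) (p : Fin m × κ') : ℕ :=
  if kk p.2 = k then 1 else 0

lemma weight_row {m : ℕ} {κ : Type} [Fintype κ] (i : Fin m) (v : Fin m × κ →₀ ℕ) :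
    Finsupp.weight (wRow i) v = ∑ k, v (i, k) := by
  rw [weight_fintype, Fintype.sum_prod_type, Finset.sum_eq_single i]
  · refine Finset.sum_congr rfl fun c _ => ?_
    rw [wRow, if_pos rfl, mul_one]
  · intro j _ hj
    refine Finset.sum_eq_zero fun c _ => ?_
    rw [wRow, if_neg hj, mul_zero]
  · intro h'
    exact absurd (Finset.mem_univ _) h'

lemma weight_col {m : ℕ} {κ κ' : Type} [Fintype κ'] [DecidableEq κ] (kk : κ' → κ) (k : κ)
    (v : Fin m × κ' →₀ ℕ) :
    Finsupp.weight (wCol kk k) v = ∑ c, if kk c = k then ∑ i, v (i, c) else 0 := by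
  rw [weight_fintype, Fintype.sum_prod_type_right]
  refine Finset.sum_congr rfl fun c _ => ?_
  by_cases hc : kk c = k
  · rw [if_pos hc]
    refine Finset.sum_congr rfl fun i _ => ?_
    rw [wCol, if_pos hc, mul_one]
  · rw [if_neg hc]
    refine Finset.sum_eq_zero fun i _ => ?_
    rw [wCol, if_neg hc, mul_zero]

section sb

variable {m : ℕ} {κ κ' κ'' : Type} [Fintype κ'] [Fintype κ''] [DecidableEq κ]

/-- Column substitution: the column `k` goes to the sum of the `co c • (column c)`, `kk c = k`. -/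
noncomputable def sb (m : ℕ) (kk : κ' → κ) (co : κ' → ℂ) :
    MvPolynomial (Fin m × κ) ℂ →ₐ[ℂ] MvPolynomial (Fin m × κ') ℂ :=
  aeval fun p => ∑ c, if kk c = p.2 then C (co c) * X (p.1, c) else 0

lemma sb_X (kk : κ' → κ) (co : κ' → ℂ) (p : Fin m × κ) :
    sb m kk co (X p) = ∑ c, if kk c = p.2 then C (co c) * X (p.1, c) else 0 := by
  rw [sb, aeval_X]

lemma sb_C (kk : κ' → κ) (co : κ' → ℂ) (x : ℂ) : sb m kk co (C x) = C x :=
  (sb m kk co).commutes x

/-- The degrees. -/
lemma sb_wt [Fintype κ] (kk : κ' → κ) (co : κ' → ℂ) (f : MvPolynomial (Fin m × κ) ℂ)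
    (u : Fin m × κ' →₀ ℕ) (hu : coeff u (sb m kk co f) ≠ 0) :
    ∃ v, coeff v f ≠ 0 ∧ (∀ i, ∑ c, u (i, c) = ∑ k, v (i, k)) ∧
      ∀ k, ∑ c, (if kk c = k then ∑ i, u (i, c) else 0) = ∑ i, v (i, k) := by
  classical
  obtain ⟨v, hv, h⟩ := wt_exists (K := Fin m ⊕ κ)
    (Sum.elim wRow (wCol kk)) (Sum.elim wRow (wCol id))
    (fun p : Fin m × κ => ∑ c, if kk c = p.2 then C (co c) * X (p.1, c) else 0) (by
      intro K p
      refine IsWeightedHomogeneous.sum _ _ _ fun c _ => ?_
      by_cases hc : kk c = p.2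
      · rw [if_pos hc]
        refine (wh_X _ _ ?_).C_mul _
        rcases K with i | k
        · rfl
        · simp only [Sum.elim_inr, wCol, hc, id]
      · rw [if_neg hc]
        exact isWeightedHomogeneous_zero _ _ _) f u hu
  refine ⟨v, hv, fun i => ?_, fun k => ?_⟩
  · have h1 := h (Sum.inl i)
    rwa [Sum.elim_inl, Sum.elim_inl, weight_row, weight_row] at h1
  · have h1 := h (Sum.inr k)
    rw [Sum.elim_inr, Sum.elim_inr, weight_col, weight_col] at h1
    rw [h1, Finset.sum_eq_single k]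
    · rw [if_pos (by rfl)]
    · intro j _ hj
      rw [if_neg (by exact hj)]
    · intro h'
      exact absurd (Finset.mem_univ _) h'

lemma pderiv_sb (kk : κ' → κ) (co : κ' → ℂ) (i : Fin m) (c : κ')
    (f : MvPolynomial (Fin m × κ) ℂ) :
    pderiv (i, c) (sb m kk co f) = C (co c) * sb m kk co (pderiv (i, kk c) f) := by
  classical
  induction f using MvPolynomial.induction_on with
  | C x => rw [sb_C, pderiv_C, pderiv_C, map_zero, mul_zero]
  | add f g hf hg => rw [map_add, map_add, hf, hg, map_add, map_add, mul_add]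
  | mul_X f p hf =>
    have hX : pderiv (i, c) (sb m kk co (X p)) = C (co c) * sb m kk co (pderiv (i, kk c) (X p)) := by
      rw [sb_X, map_sum, Finset.sum_eq_single c]
      · by_cases h : (i, kk c) = p
        · subst h
          rw [if_pos rfl, pderiv_C_mul, pderiv_X_self, pderiv_X_self, map_one]
        · rw [pderiv_X_of_ne (fun h' => h h'.symm), map_zero, mul_zero]
          by_cases hc : kk c = p.2
          · rw [if_pos hc, pderiv_C_mul, pderiv_X_of_ne, mul_zero]
            intro h'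
            apply h
            have h1 := congrArg Prod.fst h'
            exact Prod.ext h1.symm hc
          · rw [if_neg hc, map_zero]
      · intro c' _ hc'
        split_ifs
        · rw [pderiv_C_mul, pderiv_X_of_ne, mul_zero]
          intro h'
          exact hc' (congrArg Prod.snd h')
        · rw [map_zero]
      · intro h'
        exact absurd (Finset.mem_univ _) h'
    rw [map_mul, pderiv_mul, hf, hX, pderiv_mul, map_add, map_mul, map_mul]
    ring

lemma rowOp_sb [Fintype κ] (kk : κ' → κ) (co : κ' → ℂ) (s i : Fin m)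
    (f : MvPolynomial (Fin m × κ) ℂ) :
    rowOp s i (sb m kk co f) = sb m kk co (rowOp s i f) := by
  classical
  refine rowOp_aeval _ (fun p => ?_) f
  obtain ⟨a, k⟩ := p
  rw [rowOp_var, map_sum]
  by_cases hp : a = i
  · subst hp
    rw [if_pos rfl, aeval_X]
    refine Finset.sum_congr rfl fun c _ => ?_
    split_ifs
    · rw [rowOp_leibniz, rowOp_C, zero_mul, zero_add, rowOp_var, if_pos rfl]
    · rw [map_zero]
  · rw [if_neg hp, map_zero]
    refine Finset.sum_eq_zero fun c _ => ?_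
    split_ifs
    · rw [rowOp_leibniz, rowOp_C, zero_mul, zero_add, rowOp_var, if_neg hp, mul_zero]
    · rw [map_zero]

lemma sb_mem_HW [Fintype κ] (kk : κ' → κ) (co : κ' → ℂ) {mu : Fin m → ℕ}
    {f : MvPolynomial (Fin m × κ) ℂ} (hf : f ∈ HW m κ mu) : sb m kk co f ∈ HW m κ' mu := by
  refine ⟨fun u hu i => ?_, fun s i hsi => ?_⟩
  · obtain ⟨v, hv, h, _⟩ := sb_wt kk co f u hu
    rw [h i]
    exact hf.1 v hv i
  · rw [rowOp_sb, hf.2 s i hsi, map_zero]

lemma rename_sb (kk : κ' → κ) (co : κ' → ℂ) (e : κ' ≃ κ'') (f : MvPolynomial (Fin m × κ) ℂ) :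
    rename (fun p : Fin m × κ' => (p.1, e p.2)) (sb m kk co f) =
      sb m (fun c => kk (e.symm c)) (fun c => co (e.symm c)) f := by
  have h : (rename (R := ℂ) (fun p : Fin m × κ' => (p.1, e p.2))).comp (sb m kk co) =
      sb m (fun c => kk (e.symm c)) (fun c => co (e.symm c)) := by
    apply MvPolynomial.algHom_ext
    intro p
    rw [AlgHom.comp_apply, sb_X, sb_X, map_sum, ← Equiv.sum_comp e]
    refine Finset.sum_congr rfl fun c _ => ?_
    rw [Equiv.symm_apply_apply]
    split_ifs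
    · rw [map_mul, rename_X, rename_C]
    · rw [map_zero]
  exact DFunLike.congr_fun h f

/-- The scaling polynomial. -/
noncomputable def sc {m : ℕ} {κ : Type} (y : κ → Fin m → ℂ) :
    MvPolynomial (Fin m × κ) ℂ →ₐ[ℂ] MvPolynomial κ ℂ :=
  aeval fun p => C (y p.2 p.1) * X p.2

lemma sc_X {m : ℕ} {κ : Type} (y : κ → Fin m → ℂ) (p : Fin m × κ) :
    sc y (X p) = C (y p.2 p.1) * X p.2 := by
  rw [sc, aeval_X]

lemma sc_sb (kk : κ' → κ) (co : κ' → ℂ) (y : κ' → Fin m → ℂ) (f : MvPolynomial (Fin m × κ) ℂ) :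
    sc y (sb m kk co f) = aeval (fun p : Fin m × κ => ∑ c, if kk c = p.2 then
      C (co c) * (C (y c p.1) * X c) else 0) f := by
  have h : (sc y).comp (sb m kk co) = aeval (fun p : Fin m × κ => ∑ c, if kk c = p.2 then
      C (co c) * (C (y c p.1) * X c) else 0) := by
    apply MvPolynomial.algHom_ext
    intro p
    rw [AlgHom.comp_apply, sb_X, aeval_X, map_sum]
    refine Finset.sum_congr rfl fun c _ => ?_
    split_ifs
    · rw [map_mul, sc_X]
      congr 1
      exact (sc y).commutes _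
    · rw [map_zero]
  exact DFunLike.congr_fun h f

/-- The exponents of the scaling polynomial. -/
lemma sc_sb_wt [Fintype κ] (kk : κ' → κ) (co : κ' → ℂ) (y : κ' → Fin m → ℂ)
    (f : MvPolynomial (Fin m × κ) ℂ) (E : κ' →₀ ℕ) (hE : coeff E (sc y (sb m kk co f)) ≠ 0) :
    ∃ v, coeff v f ≠ 0 ∧ ∀ k, ∑ c, (if kk c = k then E c else 0) = ∑ i, v (i, k) := by
  classical
  rw [sc_sb] at hE
  obtain ⟨v, hv, h⟩ := wt_exists (K := κ) (fun k c => if kk c = k then 1 else 0)
    (wCol id) _ (by
      intro k p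
      refine IsWeightedHomogeneous.sum _ _ _ fun c _ => ?_
      by_cases hc : kk c = p.2
      · rw [if_pos hc]
        refine ((wh_X _ _ ?_).C_mul _).C_mul _
        simp only [wCol, hc, id]
      · rw [if_neg hc]
        exact isWeightedHomogeneous_zero _ _ _) f E hE
  refine ⟨v, hv, fun k => ?_⟩
  have h1 := h k
  rw [weight_fintype, weight_col] at h1
  have h2 : ∑ c, (if kk c = k then E c else 0) = ∑ c, E c * (if kk c = k then 1 else 0) := by
    refine Finset.sum_congr rfl fun c _ => ?_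
    split_ifs
    · rw [mul_one]
    · rw [mul_zero]
  rw [h2, h1, Finset.sum_eq_single k]
  · rw [if_pos (by rfl)]
  · intro j _ hj
    rw [if_neg (by exact hj)]
  · intro h'
    exact absurd (Finset.mem_univ _) h'

end sb

end Vale.Agent.P181.DGx.H248
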